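import Vale.Agent.P022.H472.Lit

/-!
P022-X: literals of the extension to all `2`-adic characters of all imaginary quadratic fields
(2 split: the full two-parameter family; 2 ramified).  Theta series with `f` periodic modulo
`2 ^ r * m` are `2`-adic limits of forms of odd level.
-/

open scoped ModularForm MatrixGroups Manifold NumberField
open UpperHalfPlane Matrix CongruenceSubgroup

noncomputable section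

namespace Vale.Agent.P022.X

/-- the ring of algebraic integers in `ℂ` -/
def Zb : Subring ℂ := (integralClosure ℤ ℂ).toSubring

/-- `φ` has an expansion `∑ x a_n e(n w / R)` on the upper half plane, with all `a_n ∈ A` -/
def Exp (A : Subring ℂ) (x : ℂ) (φ : ℂ → ℂ) : Prop :=
  ∃ (R : ℕ) (a : ℕ → ℂ), 0 < R ∧ (∀ n, a n ∈ A) ∧ ∀ w : ℂ, 0 < w.im →
    HasSum (fun n : ℕ => x * a n * Complex.exp (2 * Real.pi * Complex.I * n * w / R)) (φ w)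

/-- [EXP1] algebra of expansions -/
def EXP1Stmt : Prop := ∀ (A : Subring ℂ) (_ : ∀ z, IsIntegral ℤ z → z ∈ A),
  (∀ x y φ ψ, Exp A x φ → Exp A y ψ → Exp A (x * y) (fun w => φ w * ψ w)) ∧
  (∀ x φ ψ, Exp A x φ → Exp A x ψ → Exp A x (fun w => φ w + ψ w)) ∧
  (∀ x φ (n : ℕ), Exp A x φ → Exp A (x ^ n) (fun w => φ w ^ n)) ∧
  (∀ x y z φ, y ∈ A → Exp A (x * y * z) φ → Exp A (x * z) φ) ∧
  (∀ x y φ, Exp A x φ → Exp A (x * y) (fun w => y * φ w)) ∧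
  (∀ z ∈ A, Exp A 1 (fun _ => z)) ∧
  (∀ x φ (p q : ℕ) (t : ℤ), 0 < p → 0 < q → Exp A x φ →
    Exp A x (fun w => φ ((p * w + t) / q)))

/-- [EXP2] analytic properties of expansions; comparison of coefficients -/
def EXP2Stmt : Prop := ∀ (A : Subring ℂ) (x : ℂ) (φ : ℂ → ℂ) (_ : Exp A x φ),
  DifferentiableOn ℂ φ {w : ℂ | 0 < w.im} ∧
  (∃ B : ℝ, ∀ w : ℂ, 1 ≤ w.im → ‖φ w‖ ≤ B) ∧
  (∀ (b : ℕ → ℂ), (∀ w : ℂ, 0 < w.im →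
      HasSum (fun n : ℕ => b n * Complex.exp (2 * Real.pi * Complex.I * n * w)) (φ w)) →
    ∀ n, ∃ y ∈ A, b n = x * y) ∧
  ((∀ w : ℂ, 0 < w.im → φ (w + 1) = φ w) → ∃ a : ℕ → ℂ, (∀ n, a n ∈ A) ∧ ∀ w : ℂ, 0 < w.im →
    HasSum (fun n : ℕ => x * a n * Complex.exp (2 * Real.pi * Complex.I * n * w)) (φ w))

/-- [VAL] a valuation ring of `ℂ` above the place `ι` of `K` -/
def VALStmt : Prop := ∀ (K : Type) [Field K] (σ : K →+* ℂ)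
  (E : Type) [NontriviallyNormedField E] [NormedAlgebra ℚ_[2] E] [IsUltrametricDist E]
  (ι : K →+* E), ∃ O : Subring ℂ, (∀ z, IsIntegral ℤ z → z ∈ O) ∧
    (∀ m : ℕ, Odd m → ((m : ℂ)⁻¹) ∈ O) ∧
    ∀ (x : K) (n : ℕ), (∃ y ∈ O, σ x = 2 ^ n * y) → ‖ι x‖ ≤ (2 : ℝ)⁻¹ ^ n

/-- [E4] the form `g = (E₄(w) - 16 E₄(2w)) / (-15)` of weight 4 on `Γ₀(2)` -/
def E4Stmt : Prop := ∃ g : ℂ → ℂ,
  (∃ h : ℕ → ℤ, ∀ w : ℂ, 0 < w.im → HasSum (fun n : ℕ =>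
    (((if n = 0 then 1 else 0) + 16 * h n : ℤ) : ℂ) *
      Complex.exp (2 * Real.pi * Complex.I * n * w)) (g w)) ∧
  (∀ A B C d : ℤ, A * d - B * C = 1 → (2 : ℤ) ∣ C → ∀ w : ℂ, 0 < w.im →
    g ((A * w + B) / (C * w + d)) = (C * w + d) ^ 4 * g w) ∧
  (∀ A B C d : ℤ, A * d - B * C = 1 → ¬ (2 : ℤ) ∣ C → ∃ φ : ℂ → ℂ, Exp Zb 16 φ ∧
    ∀ w : ℂ, 0 < w.im → g ((A * w + B) / (C * w + d)) = (C * w + d) ^ 4 * φ w)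

/-- [HS] forms on `Γ₀(2^s)` congruent to `1` mod `2` at `∞` and to `0` mod `2` elsewhere -/
def HSStmt : Prop := ∀ s : ℕ, ∃ (k : ℕ) (H : ℂ → ℂ),
  (∃ h : ℕ → ℤ, ∀ w : ℂ, 0 < w.im → HasSum (fun n : ℕ =>
    (((if n = 0 then 1 else 0) + 2 * h n : ℤ) : ℂ) *
      Complex.exp (2 * Real.pi * Complex.I * n * w)) (H w)) ∧
  (∀ A B C d : ℤ, A * d - B * C = 1 → (2 ^ s : ℤ) ∣ C → ∀ w : ℂ, 0 < w.im →
    H ((A * w + B) / (C * w + d)) = (C * w + d) ^ k * H w) ∧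
  (∀ A B C d : ℤ, A * d - B * C = 1 → ¬ (2 ^ s : ℤ) ∣ C → ∃ φ : ℂ → ℂ, Exp Zb 2 φ ∧
    ∀ w : ℂ, 0 < w.im → H ((A * w + B) / (C * w + d)) = (C * w + d) ^ k * φ w)

/-- [TR] the trace from `Γ₁(N) ∩ Γ₀(2^s)` to `Γ₁(N)`, `N` odd, with one system of
representatives, and the diamond operators -/
def TRStmt : Prop := ∀ (N s : ℕ) (_ : Odd N), ∃ reps : Finset SL(2, ℤ), 1 ∈ reps ∧
  (∀ γ ∈ reps, γ ∈ Gamma1 N) ∧ (∀ γ ∈ reps, γ ≠ 1 → ¬ (2 ^ s : ℤ) ∣ γ 1 0) ∧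
  ∀ (k : ℕ) (F : ℍ → ℂ), MDifferentiable 𝓘(ℂ) 𝓘(ℂ) F →
    (∀ γ : SL(2, ℤ), γ ∈ Gamma1 N → (2 ^ s : ℤ) ∣ γ 1 0 → F ∣[(k : ℤ)] γ = F) →
    (∀ γ : SL(2, ℤ), IsBoundedAtImInfty (F ∣[(k : ℤ)] γ)) →
    ∃ G : MF N k, (G : ℍ → ℂ) = ∑ γ ∈ reps, F ∣[(k : ℤ)] γ ∧
      ∀ (ℓ : PA N) (δ : SL(2, ℤ)), ((N * 2 ^ s : ℕ) : ℤ) ∣ δ 1 0 → (N : ℤ) ∣ δ 1 1 - ℓ.1 →
        dFun N k ℓ G = ∑ γ ∈ reps, (F ∣[(k : ℤ)] δ) ∣[(k : ℤ)] γ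

/-- [COS] theta series at all cusps: expansions with bounded denominators -/
def COSStmt : Prop := ∀ (a b c : ℤ) (D : ℕ) (_ : 0 < a) (_ : 0 < D)
  (_ : b ^ 2 - 4 * a * c = -(D : ℤ)) (κ m : ℕ) (_ : 0 < m) (f : ℤ × ℤ → ℂ) (_ : Per m f)
  (_ : ∀ v, IsIntegral ℤ (f v)) (A B C d : ℤ) (_ : A * d - B * C = 1),
  ∃ (t : ℕ) (φ : ℂ → ℂ), 0 < t ∧ Exp Zb ((t : ℂ)⁻¹) φ ∧ ∀ w : ℂ, 0 < w.im →
    th a b c D κ f ((A * w + B) / (C * w + d)) = (C * w + d) ^ (κ + 1) * φ w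

/-- the Kronecker symbol `(-D / d)` for odd `d` -/
def chiD (D : ℕ) (d : ℤ) : ℤ := d.sign * jacobiSym (-(D : ℤ)) d.natAbs

/-- [LAWG] the law under `Γ₀(D m²)` for every `D`, even or odd, and odd `d` -/
def LAWGStmt : Prop := ∀ (a b c : ℤ) (D : ℕ) (_ : 0 < a) (_ : 0 < D)
  (_ : b ^ 2 - 4 * a * c = -(D : ℤ)) (κ m : ℕ) (_ : 0 < m) (f : ℤ × ℤ → ℂ) (_ : Per m f)
  (A B C d : ℤ) (_ : A * d - B * C = 1) (_ : ((D * m ^ 2 : ℕ) : ℤ) ∣ C) (_ : Odd d)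
  (w : ℂ) (_ : 0 < w.im),
  th a b c D κ f ((A * w + B) / (C * w + d)) =
    chiD D d * (C * w + d) ^ (κ + 1) * th a b c D κ (fun v => f (d • v)) w

/-- [CHI] the `2`-part of the quadratic character: `χ` has period 8 and is multiplicative -/
def CHIStmt : Prop := ∀ (D₁ : ℕ) (e : ℕ) (_ : Odd D₁) (_ : (e = 0 ∧ D₁ % 4 = 3) ∨ e = 2 ∨ e = 3),
  ∃ χ : ℤ → ℤ, (∀ d, Odd d → χ d = 1 ∨ χ d = -1) ∧ (∀ d, χ (d + 8) = χ d) ∧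
    (∀ d d', Odd d → Odd d' → χ (d * d') = χ d * χ d') ∧
    ∀ d d' : ℤ, Odd d → IsCoprime d (D₁ : ℤ) → Odd d' → (D₁ : ℤ) ∣ d' - 1 →
      chiD (D₁ * 2 ^ e) (d' * d) = χ d' * chiD (D₁ * 2 ^ e) d

variable {K : Type} [Field K] [NumberField K]

/-- functions `𝓞 K → ℤ`, periodic modulo `2 ^ r * m`, with character `χ` under the odd
integers `d ≡ 1` modulo `N` -/
def Eqv (m r N : ℕ) (χ : ℤ → ℤ) (f : 𝓞 K → ℤ) : Prop :=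
  (∀ α β : 𝓞 K, f (α + (2 ^ r * m : ℕ) * β) = f α) ∧
  ∀ d : ℤ, Odd d → (N : ℤ) ∣ d - 1 → ∀ α : 𝓞 K, f (d * α) = χ d * f α

/-- [SWX] approximation of a continuous function on the elements of odd norm by combinations
of `f(α) ι(α)^κ`, `f` as in `Eqv` -/
def SWXStmt : Prop := ∀ (K : Type) [Field K] [NumberField K]
  (E : Type) [NontriviallyNormedField E] [NormedAlgebra ℚ_[2] E] [IsUltrametricDist E]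
  (ι : K →+* E) (m N : ℕ) (_ : Odd m) (_ : m ∣ N) (χ : ℤ → ℤ)
  (_ : ∀ d, Odd d → χ d = 1 ∨ χ d = -1) (_ : ∀ d, χ (d + 8) = χ d)
  (_ : ∀ d d', Odd d → Odd d' → χ (d * d') = χ d * χ d')
  (ψ : 𝓞 K → E)
  (_ : ∀ ε : ℝ, 0 < ε → ∃ r : ℕ, ∀ α β : 𝓞 K, ‖ψ (α + (2 ^ r * m : ℕ) * β) - ψ α‖ < ε)
  (ε : ℝ) (_ : 0 < ε),
  ∃ (J r : ℕ) (f : Fin J → 𝓞 K → ℤ) (κ : Fin J → ℕ) (c : Fin J → E),
    (∀ j, Eqv m r N χ (f j)) ∧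
    ∀ α : 𝓞 K, Odd (Ideal.absNorm (Ideal.span {α})) →
      ‖ψ α - ∑ j, c j * (f j α : E) * ι α ^ κ j‖ < ε

/-- the `j`-th coefficient of the theta series of `𝔟` -/
def cfI (σ : K →+* ℂ) (𝔟 : Ideal (𝓞 K)) (f : 𝓞 K → ℤ) (κ j : ℕ) : ℂ :=
  ∑ᶠ α ∈ {α : 𝓞 K | α ∈ 𝔟 ∧ Ideal.absNorm (Ideal.span {α}) = j * Ideal.absNorm 𝔟},
    (f α : ℂ) * σ α ^ κ

/-- `G` has a `q`-expansion congruent to `∑ a_j q^j` modulo `2 ^ n O` -/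
def Cong (O : Subring ℂ) (n : ℕ) (G : ℍ → ℂ) (a : ℕ → ℂ) : Prop :=
  ∃ a' : ℕ → ℂ, (∀ j, ∃ y ∈ O, a' j = a j + 2 ^ n * y) ∧
    ∀ τ : ℍ, HasSum (fun j : ℕ => a' j * Complex.exp (2 * Real.pi * Complex.I * j * τ)) (G τ)

/-- [LIFT] theta series of level `N 2^s` are congruent to forms of odd level `N` -/
def LIFTStmt : Prop := ∀ (K : Type) [Field K] [NumberField K] [Algebra.IsQuadraticExtension ℚ K]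
  [NumberField.IsTotallyComplex K] (D₁ e : ℕ) (_ : NumberField.discr K = -((D₁ * 2 ^ e : ℕ) : ℤ))
  (_ : Odd D₁) (m : ℕ) (_ : Odd m) (χ : ℤ → ℤ)
  (_ : ∀ d, Odd d → χ d = 1 ∨ χ d = -1)
  (_ : ∀ d d' : ℤ, Odd d → IsCoprime d (D₁ : ℤ) → Odd d' → (D₁ : ℤ) ∣ d' - 1 →
      chiD (D₁ * 2 ^ e) (d' * d) = χ d' * chiD (D₁ * 2 ^ e) d)
  (σ : K →+* ℂ) (O : Subring ℂ) (_ : ∀ z, IsIntegral ℤ z → z ∈ O)
  (_ : ∀ m : ℕ, Odd m → ((m : ℂ)⁻¹) ∈ O) (r κ n : ℕ) (𝔟 : Ideal (𝓞 K)) (_ : 𝔟 ≠ ⊥),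
  ∃ (k : ℕ) (Φ : (𝓞 K → ℤ) → MF (D₁ * m ^ 2) k), 2 ^ n ∣ k - (κ + 1) ∧ κ + 1 ≤ k ∧
    ∀ f : 𝓞 K → ℤ, Eqv m r (D₁ * m ^ 2) χ f →
      Cong O n (Φ f) (cfI σ 𝔟 f κ) ∧
      ∀ ℓ : PA (D₁ * m ^ 2), dFun (D₁ * m ^ 2) k ℓ (Φ f) =
        Φ (fun α => chiD (D₁ * 2 ^ e) ℓ.1 * f (ℓ.1 * α))

/-- [TQ] the action of `T_ℓ` on `q`-expansions, for functions on `ℍ` -/
def TQStmt : Prop := ∀ (N k : ℕ) (_ : 0 < k) (ℓ : PA N) (G : ℍ → ℂ) (a b : ℕ → ℂ)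
  (_ : ∀ τ : ℍ, HasSum (fun j : ℕ => a j * Complex.exp (2 * Real.pi * Complex.I * j * τ)) (G τ))
  (_ : ∀ τ : ℍ, HasSum (fun j : ℕ => b j * Complex.exp (2 * Real.pi * Complex.I * j * τ))
    (dFun N k ℓ G τ)) (τ : ℍ),
  HasSum (fun j : ℕ => (a (ℓ.1 * j) + (if ℓ.1 ∣ j then (ℓ.1 : ℂ) ^ (k - 1) * b (j / ℓ.1) else 0)) *
    Complex.exp (2 * Real.pi * Complex.I * j * τ)) (tFun N k ℓ G τ)

/-- [COMM] `T_ℓ` and `⟨ℓ'⟩` commute on `M_k(Γ₁(N))` -/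
def COMMStmt : Prop := ∀ (N k : ℕ) (_ : 0 < N) (ℓ ℓ' : PA N) (G : MF N k),
  dFun N k ℓ' (tFun N k ℓ G) = tFun N k ℓ (dFun N k ℓ' G)

/-- [JACG] the number of ideals of norm `ℓ`, for every discriminant -/
def JACGStmt : Prop := ∀ (K : Type) [Field K] [NumberField K] [Algebra.IsQuadraticExtension ℚ K]
  [NumberField.IsTotallyComplex K] (D : ℕ) (_ : NumberField.discr K = -(D : ℤ))
  (ℓ : ℕ) (_ : ℓ.Prime) (_ : ¬ ℓ ∣ 2 * D),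
  (({𝔭 : Ideal (𝓞 K) | Ideal.absNorm 𝔭 = ℓ}.ncard : ℕ) : ℤ) = 1 + chiD D ℓ ∧
    ∀ 𝔭 : Ideal (𝓞 K), Ideal.absNorm 𝔭 = ℓ → 𝔭 ^ 2 ≠ Ideal.span {(ℓ : 𝓞 K)}

end Vale.Agent.P022.X
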