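import Vale.Agent.P022.H472.Lit2
import Vale.Agent.P022.H220.Exp
import Vale.Agent.P022.H933.Ext

/-!
P022-X: literals in the letters of `H472.Lit2` (Van, App, CORE) and `H220.Exp` (Ex).
-/

open scoped ModularForm MatrixGroups Manifold NumberField
open UpperHalfPlane Matrix CongruenceSubgroup

noncomputable section

namespace Vale.Agent.P022.X

/-- `z O` -/
def mulS (z : ℂ) (O : Subring ℂ) : AddSubgroup ℂ where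
  carrier := {x | ∃ y ∈ O, x = z * y}
  zero_mem' := ⟨0, O.zero_mem, by simp⟩
  add_mem' := by
    rintro _ _ ⟨a, ha, rfl⟩ ⟨b, hb, rfl⟩
    exact ⟨a + b, O.add_mem ha hb, by ring⟩
  neg_mem' := by
    rintro _ ⟨a, ha, rfl⟩
    exact ⟨-a, O.neg_mem ha, by ring⟩

/-- [HS2] forms on `Γ₀(2^s)` congruent to `1` mod `2` at `∞` and to `0` mod `2` elsewhere -/
def HS2Stmt : Prop := ∀ s : ℕ, ∃ (k : ℕ) (H : ℍ → ℂ),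
  H220.Ex Zb.toAddSubgroup 1 (fun τ => (H τ - 1) / 2) ∧
  (∀ γ : SL(2, ℤ), (2 ^ s : ℤ) ∣ γ 1 0 → H ∣[(k : ℤ)] γ = H) ∧
  (∀ γ : SL(2, ℤ), ¬ (2 ^ s : ℤ) ∣ γ 1 0 →
    ∃ R : ℕ, 0 < R ∧ H220.Ex (mulS 2 Zb) R (H ∣[(k : ℤ)] γ))

/-- [THX] theta series at all cusps: expansions with bounded denominators -/
def THXStmt : Prop := ∀ (a b c : ℤ) (D : ℕ) (_ : 0 < a) (_ : 0 < D)
  (_ : b ^ 2 - 4 * a * c = -(D : ℤ)) (κ m : ℕ) (_ : 0 < m) (f : ℤ × ℤ → ℂ) (_ : Per m f)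
  (_ : ∀ v, IsIntegral ℤ (f v)) (O : Subring ℂ) (_ : ∀ z, IsIntegral ℤ z → z ∈ O)
  (_ : ∀ m : ℕ, Odd m → ((m : ℂ)⁻¹) ∈ O) (F : ℍ → ℂ) (_ : ∀ τ : ℍ, F τ = th a b c D κ f τ)
  (γ : SL(2, ℤ)),
  ∃ (R B : ℕ), 0 < R ∧ H220.Ex (mulS ((2 : ℂ)⁻¹ ^ B) O) R (F ∣[((κ + 1 : ℕ) : ℤ)] γ)

/-- [LIFT2] theta series of level `N 2^s` are congruent to forms of odd level `N` -/
def LIFT2Stmt : Prop := ∀ (K : Type) [Field K] [NumberField K] [Algebra.IsQuadraticExtension ℚ K]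
  [NumberField.IsTotallyComplex K] (D₁ e : ℕ) (_ : NumberField.discr K = -((D₁ * 2 ^ e : ℕ) : ℤ))
  (_ : Odd D₁) (m : ℕ) (_ : Odd m) [NeZero (D₁ * m ^ 2)] (χ : ℤ → ℤ)
  (_ : ∀ d, Odd d → χ d = 1 ∨ χ d = -1)
  (_ : ∀ d d' : ℤ, Odd d → IsCoprime d (D₁ : ℤ) → Odd d' → (D₁ : ℤ) ∣ d' - 1 →
      chiD (D₁ * 2 ^ e) (d' * d) = χ d' * chiD (D₁ * 2 ^ e) d)
  (σ : K →+* ℂ) (O : Subring ℂ) (_ : ∀ z, IsIntegral ℤ z → z ∈ O)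
  (_ : ∀ m : ℕ, Odd m → ((m : ℂ)⁻¹) ∈ O) (r κ n : ℕ) (𝔟 : Ideal (𝓞 K)) (_ : 𝔟 ≠ ⊥),
  ∃ (k : ℕ) (Φ : (𝓞 K → ℤ) → MF (D₁ * m ^ 2) (κ + 2 ^ n * k + 1)),
    ∀ f : 𝓞 K → ℤ, Eqv m r (D₁ * m ^ 2) χ f →
      Cong O n (Φ f) (cfI σ 𝔟 f κ) ∧
      ∀ ℓ : PA (D₁ * m ^ 2), H783.dia (κ + 2 ^ n * k + 1) ℓ (Φ f) =
        Φ (fun α => chiD (D₁ * 2 ^ e) ℓ.1 * f (ℓ.1 * α))

section

variable {K : Type} [Field K] [NumberField K] {E : Type} [NontriviallyNormedField E]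

/-- `ψ` is continuous with tame conductor `m`, for the `2`-adic topology of `𝓞 K` -/
def Cont2 (m : ℕ) (ψ : Ideal (𝓞 K) →* E) : Prop :=
  ∀ ε : ℝ, 0 < ε → ∃ r : ℕ, ∀ α : 𝓞 K, ((2 ^ r * m : ℕ) : 𝓞 K) ∣ α - 1 →
    ‖ψ (Ideal.span {α}) - 1‖ < ε

/-- the class of functions used in the approximation -/
def Fam (m N : ℕ) (χ : ℤ → ℤ) : Set (𝓞 K → ℤ) := {f | ∃ r, Eqv m r N χ f}

end

/-- [NRM2] `ψ` has absolute value one on ideals prime to `2m` -/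
def NRM2Stmt : Prop := ∀ (K : Type) [Field K] [NumberField K] (E : Type)
  [NontriviallyNormedField E] [NormedAlgebra ℚ_[2] E] [IsUltrametricDist E]
  [FiniteDimensional ℚ_[2] E] (m : ℕ) (_ : Odd m) (ψ : Ideal (𝓞 K) →* E)
  (_ : Cont2 m ψ) (𝔞 : Ideal (𝓞 K)) (_ : IsCoprime 𝔞 (Ideal.span {((2 * m : ℕ) : 𝓞 K)})),
  ‖ψ 𝔞‖ = 1

/-- [APP2] approximation with the functions of `Fam` -/
def APP2Stmt : Prop := ∀ (K : Type) [Field K] [NumberField K] (E : Type)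
  [NontriviallyNormedField E] [NormedAlgebra ℚ_[2] E] [IsUltrametricDist E]
  [FiniteDimensional ℚ_[2] E] (ι : K →+* E) (m N : ℕ) (_ : Odd m) (_ : m ∣ N) (χ : ℤ → ℤ)
  (_ : ∀ d, Odd d → χ d = 1 ∨ χ d = -1) (_ : ∀ d, χ (d + 8) = χ d)
  (_ : ∀ d d', Odd d → Odd d' → χ (d * d') = χ d * χ d') (ψ : Ideal (𝓞 K) →* E)
  (_ : Cont2 m ψ) (_ : ∀ 𝔞 : Ideal (𝓞 K), IsCoprime 𝔞 (Ideal.span {((2 * m : ℕ) : 𝓞 K)}) →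
    ‖ψ 𝔞‖ = 1),
  App ι m ψ (Fam m N χ)

/-- [VAN2] the vanishing property for `Fam`, every discriminant -/
def VAN2Stmt : Prop := ∀ (K : Type) [Field K] [NumberField K] [Algebra.IsQuadraticExtension ℚ K]
  [NumberField.IsTotallyComplex K] (D₁ e : ℕ) (_ : NumberField.discr K = -((D₁ * 2 ^ e : ℕ) : ℤ))
  (_ : Odd D₁) (E : Type) [NontriviallyNormedField E] [NormedAlgebra ℚ_[2] E]
  [IsUltrametricDist E] (ι : K →+* E) (m : ℕ) (_ : Odd m) [NeZero (D₁ * m ^ 2)]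
  (χ : ℤ → ℤ) (_ : ∀ d, Odd d → χ d = 1 ∨ χ d = -1)
  (_ : ∀ d d' : ℤ, Odd d → IsCoprime d (D₁ : ℤ) → Odd d' → (D₁ : ℤ) ∣ d' - 1 →
      chiD (D₁ * 2 ^ e) (d' * d) = χ d' * chiD (D₁ * 2 ^ e) d),
  Van K (D₁ * m ^ 2) (fun ℓ => chiD (D₁ * 2 ^ e) ℓ) ι (Fam m (D₁ * m ^ 2) χ)

/-- [MAIN2] the theorem on the automorphic side, every imaginary quadratic field, every `2`-adic
character of tame conductor `m` -/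
def MAIN2Stmt : Prop := ∀ (K : Type) [Field K] [NumberField K]
  [Algebra.IsQuadraticExtension ℚ K] [NumberField.IsTotallyComplex K]
  (D₁ e : ℕ) (_ : NumberField.discr K = -((D₁ * 2 ^ e : ℕ) : ℤ)) (_ : Odd D₁) (E : Type)
  [NontriviallyNormedField E] [NormedAlgebra ℚ_[2] E] [IsUltrametricDist E]
  [FiniteDimensional ℚ_[2] E] (_ : K →+* E) (m : ℕ) (_ : Odd m) [NeZero (D₁ * m ^ 2)]
  (ψ : Ideal (𝓞 K) →* E) (_ : Cont2 m ψ),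
  ∃ c : ContHom (gHk (D₁ * m ^ 2)) E, ∀ ℓ : PA (D₁ * m ^ 2),
    c.lam (gT2 (gHk (D₁ * m ^ 2)) (Sum.inl ℓ)) =
      (∑ᶠ 𝔭 ∈ {𝔭 : Ideal (𝓞 K) | Ideal.absNorm 𝔭 = ℓ.1}, ψ 𝔭) ∧
    c.lam (gT2 (gHk (D₁ * m ^ 2)) (Sum.inr ℓ)) =
      chiD (D₁ * 2 ^ e) ℓ.1 * ψ (Ideal.span {(ℓ.1 : 𝓞 K)})

/-- [CHI2] the `2`-part of the quadratic character (no condition on `D₁`, `e`) -/
def CHI2Stmt : Prop := ∀ (D₁ : ℕ) (e : ℕ) (_ : Odd D₁),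
  ∃ χ : ℤ → ℤ, (∀ d, Odd d → χ d = 1 ∨ χ d = -1) ∧ (∀ d, χ (d + 8) = χ d) ∧
    (∀ d d', Odd d → Odd d' → χ (d * d') = χ d * χ d') ∧
    ∀ d d' : ℤ, Odd d → IsCoprime d (D₁ : ℤ) → Odd d' → (D₁ : ℤ) ∣ d' - 1 →
      chiD (D₁ * 2 ^ e) (d' * d) = χ d' * chiD (D₁ * 2 ^ e) d

theorem main2 (hC : COREStmt) (hA : APP2Stmt) (hV : VAN2Stmt) (hN : NRM2Stmt)
    (hχ : CHI2Stmt) : MAIN2Stmt := by
  intro K _ _ _ _ D₁ e hD hD₁ E _ _ _ _ ι m hm _ ψ hψ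
  obtain ⟨χ, h1, h2, h3, h4⟩ := hχ D₁ e hD₁
  have hN' := hN K E m hm ψ hψ
  have hmN : m ∣ D₁ * m ^ 2 := ⟨D₁ * m, by ring⟩
  obtain ⟨c, hc⟩ := hC K E ι m hm (D₁ * m ^ 2) hmN (fun ℓ => chiD (D₁ * 2 ^ e) ℓ) ψ hN'
    (Fam m (D₁ * m ^ 2) χ) (hA K E ι m (D₁ * m ^ 2) hm hmN χ h1 h2 h3 ψ hψ hN')
    (hV K D₁ e hD hD₁ E ι m hm χ h1 h4)
  exact ⟨c, hc⟩

end Vale.Agent.P022.X
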