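import Vale.Agent.P022.H933.Main2
import Vale.Agent.P022.H964.Thf

/-!
# P022-X: the theorem of stage 2 on the automorphic side, unconditional

Every continuous 2-adic character of the ideals of an imaginary quadratic field `K` prime to
`2 m`, `m` odd, gives a point of the Hecke algebra of level `D₁ m²`, where `D₁` is the odd part
of the discriminant of `K`: no condition on the way `2` splits in `K`.
-/

namespace Vale.Agent.P022.X

open Vale.Agent.P022

theorem lift2 : LIFT2Stmt :=
  H227.LIFT2 H645.trX H889.HS2 (H964.thf H420.po (H138.LAWG H420.po) H724.IB)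

/-- **stage 2** -/
theorem MAIN2 : MAIN2Stmt :=
  main2 (H545.CORE H587.LIM H494.cls H576.SUP) H692.APP2 (van2 lift2) H576.X2.NRM2 H776.CHI2

end Vale.Agent.P022.X
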