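import Vale.Agent.P022.H933.Van2
import Vale.Agent.P022.H227.Lift
import Vale.Agent.P022.H692.App2S
import Vale.Agent.P022.H545.Core
import Vale.Agent.P022.H587.Lim
import Vale.Agent.P022.H494.Cls
import Vale.Agent.P022.H576.Sup
import Vale.Agent.P022.H576.Nrm2
import Vale.Agent.P022.H776.Chi2
import Vale.Agent.P022.H645.TrX
import Vale.Agent.P022.H889.HsX
import Vale.Agent.P022.H138.LawG
import Vale.Agent.P022.H420.Po
import Vale.Agent.P022.H724.IB

/-!
# P022-X: the theorem of stage 2 from its last open block, the theta side of the lift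
-/

namespace Vale.Agent.P022.X

open Vale.Agent.P022

/-- stage 2 (all imaginary quadratic fields, `2` arbitrary in the field), from [THF] -/
theorem main2_of_thf (hT : H227.THFStmt) : MAIN2Stmt :=
  main2 (H545.CORE H587.LIM H494.cls H576.SUP) H692.APP2
    (van2 (H227.LIFT2 H645.trX H889.HS2 hT)) H576.X2.NRM2 H776.CHI2

end Vale.Agent.P022.X
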