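import Vale.Agent.P022.H933.Ext2
import Vale.Agent.P022.H220.Exp2
import Vale.Agent.P022.H220.Shell
import Vale.Agent.P022.H776.Jace
import Vale.Agent.P022.H576.Sup
import Vale.Agent.P022.H547.Val
import Vale.Agent.P022.H783.Comm

/-!
P022-X [VAN2]: the vanishing property for the class `Fam`, from [LIFT2].
-/

open scoped ModularForm MatrixGroups Manifold NumberField
open UpperHalfPlane Matrix CongruenceSubgroup

noncomputable section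

namespace Vale.Agent.P022.X

/-! ### congruences -/

section cong

variable {O : Subring ℂ} {n : ℕ} {G G' : ℍ → ℂ} {a a' b : ℕ → ℂ}

theorem Cong.add (h : Cong O n G a) (h' : Cong O n G' a') :
    Cong O n (fun τ => G τ + G' τ) (fun j => a j + a' j) := by
  obtain ⟨u, hu, hs⟩ := h
  obtain ⟨u', hu', hs'⟩ := h'
  refine ⟨fun j => u j + u' j, fun j => ?_, fun τ => ?_⟩
  · obtain ⟨y, hy, e⟩ := hu j
    obtain ⟨y', hy', e'⟩ := hu' j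
    exact ⟨y + y', O.add_mem hy hy', by simp only [e, e']; ring⟩
  · refine H220.hs_congr' ((hs τ).add (hs' τ)) fun j => by ring

theorem Cong.zsmul (c : ℤ) (h : Cong O n G a) :
    Cong O n (fun τ => (c : ℂ) * G τ) (fun j => (c : ℂ) * a j) := by
  obtain ⟨u, hu, hs⟩ := h
  refine ⟨fun j => c * u j, fun j => ?_, fun τ => ?_⟩
  · obtain ⟨y, hy, e⟩ := hu j
    exact ⟨c * y, O.mul_mem (intCast_mem O c) hy, by simp only [e]; ring⟩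
  · exact H220.hs_congr' ((hs τ).mul_left (c : ℂ)) fun j => by ring

theorem Cong.change (h : Cong O n G a) (e : ∀ j, ∃ y ∈ O, a j = b j + 2 ^ n * y) :
    Cong O n G b := by
  obtain ⟨u, hu, hs⟩ := h
  refine ⟨u, fun j => ?_, hs⟩
  obtain ⟨y, hy, e1⟩ := hu j
  obtain ⟨y', hy', e2⟩ := e j
  exact ⟨y' + y, O.add_mem hy' hy, by rw [e1, e2]; ring⟩

theorem Cong.congr (h : Cong O n G a) (e : ∀ τ, G' τ = G τ) (e' : ∀ j, b j = a j) :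
    Cong O n G' b := by
  rw [funext e, funext e']
  exact h

theorem two_pow_dvd (u : ℕ) (hu : Odd u) (n : ℕ) : ((2 ^ n : ℕ) : ℤ) ∣ (u : ℤ) ^ (2 ^ n) - 1 := by
  induction n with
  | zero => simp
  | succ n ih =>
    have e : (u : ℤ) ^ (2 ^ (n + 1)) - 1 = ((u : ℤ) ^ (2 ^ n) - 1) * ((u : ℤ) ^ (2 ^ n) + 1) := by
      rw [pow_succ, pow_mul]; ring
    rw [e, pow_succ]
    push_cast at ih ⊢
    refine mul_dvd_mul ih ?_
    have : Odd ((u : ℤ) ^ (2 ^ n)) := by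
      have hz : Odd (u : ℤ) := by exact_mod_cast hu
      exact hz.pow
    obtain ⟨t, ht⟩ := this
    exact ⟨t + 1, by rw [ht]; ring⟩

theorem hs_one {c : ℕ → ℂ} {G : ℍ → ℂ}
    (h : ∀ τ : ℍ, HasSum (fun j : ℕ => c j * Complex.exp (2 * Real.pi * Complex.I * j * τ)) (G τ))
    (τ : ℍ) : HasSum (fun j : ℕ => c j *
      Complex.exp (2 * Real.pi * Complex.I * j * (τ : ℂ) / (1 : ℕ))) (G τ) := by
  refine H220.hs_congr' (h τ) fun j => ?_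
  rw [Nat.cast_one, div_one]

theorem Cong.tFun {N κ k : ℕ} (ℓ : PA N) (ho : Odd ℓ.1) (hb : ∀ j, b j ∈ O)
    (h : Cong O n G a) (h' : Cong O n (dFun N (κ + 2 ^ n * k + 1) ℓ G) b) :
    Cong O n (tFun N (κ + 2 ^ n * k + 1) ℓ G)
      (fun j => a (ℓ.1 * j) + if ℓ.1 ∣ j then (ℓ.1 : ℂ) ^ κ * b (j / ℓ.1) else 0) := by
  obtain ⟨u, hu, hs⟩ := h
  obtain ⟨v, hv, ht⟩ := h'
  have key := fun τ => H220.Ex.hasSum_tFun ℓ (κ + 2 ^ n * k) (hs_one hs) (hs_one ht) τ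
  refine ⟨_, ?_, fun τ => H220.hs_congr' (key τ) fun j => by rw [Nat.cast_one, div_one]⟩
  intro j
  obtain ⟨y, hy, e⟩ := hu (ℓ.1 * j)
  by_cases hj : ℓ.1 ∣ j
  · obtain ⟨z, hz, e'⟩ := hv (j / ℓ.1)
    obtain ⟨t, ht'⟩ := two_pow_dvd (ℓ.1 ^ k) (ho.pow) n
    have hp : (ℓ.1 : ℂ) ^ (κ + 2 ^ n * k) = (ℓ.1 : ℂ) ^ κ + 2 ^ n * ((ℓ.1 : ℂ) ^ κ * (t : ℂ)) := by
      have h1 : (((ℓ.1 ^ k : ℕ) : ℤ) : ℂ) ^ (2 ^ n) - 1 = ((2 ^ n : ℕ) : ℂ) * (t : ℂ) := by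
        exact_mod_cast congrArg (Int.cast : ℤ → ℂ) ht'
      push_cast at h1
      rw [pow_add, pow_mul', eq_add_of_sub_eq h1]
      ring
    refine ⟨y + ((ℓ.1 : ℂ) ^ κ * (t : ℂ) * b (j / ℓ.1) + (ℓ.1 : ℂ) ^ (κ + 2 ^ n * k) * z), ?_, ?_⟩
    · refine O.add_mem hy (O.add_mem (O.mul_mem (O.mul_mem (O.pow_mem (natCast_mem O _) _)
        (intCast_mem O t)) (hb _)) (O.mul_mem (O.pow_mem (natCast_mem O _) _) hz))
    · simp only [if_pos hj]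
      rw [e, e']
      conv_lhs => rw [mul_add, hp]
      rw [hp]
      ring
  · exact ⟨y, hy, by simp only [if_neg hj]; rw [e]; ring⟩

end cong

/-! ### coefficients of combinations of theta series -/

variable {K : Type} [Field K] [NumberField K]

/-- the coefficients of the theta series of a nonzero ideal -/
def cb (σ : K →+* ℂ) (𝔠 : Ideal (𝓞 K)) (f : 𝓞 K → ℤ) (κ j : ℕ) : ℂ :=
  open Classical in if 𝔠 = ⊥ then 0 else cfI σ 𝔠 f κ j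

/-- the coefficients of `∑ x(𝔞) θ_{𝔟 𝔞}` -/
def cc (σ : K →+* ℂ) (𝔟 : Ideal (𝓞 K)) (κ : ℕ) (x : MonoidAlgebra ℤ (Ideal (𝓞 K)))
    (f : 𝓞 K → ℤ) (j : ℕ) : ℂ :=
  x.coeff.sum fun 𝔞 c => (c : ℂ) * cb σ (𝔟 * 𝔞) f κ j

section cc

variable (σ : K →+* ℂ) (𝔟 : Ideal (𝓞 K)) (κ : ℕ) (f : 𝓞 K → ℤ) (j : ℕ)

theorem cc_zero : cc σ 𝔟 κ 0 f j = 0 := by
  rw [cc, MonoidAlgebra.coeff_zero, Finsupp.sum_zero_index]

theorem cc_add (x y : MonoidAlgebra ℤ (Ideal (𝓞 K))) :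
    cc σ 𝔟 κ (x + y) f j = cc σ 𝔟 κ x f j + cc σ 𝔟 κ y f j := by
  rw [cc, MonoidAlgebra.coeff_add, Finsupp.sum_add_index']
  · rfl
  · intro 𝔞; simp
  · intro 𝔞 c c'; push_cast; ring

theorem cc_single (𝔞 : Ideal (𝓞 K)) (c : ℤ) :
    cc σ 𝔟 κ (MonoidAlgebra.single 𝔞 c) f j = (c : ℂ) * cb σ (𝔟 * 𝔞) f κ j := by
  rw [cc, MonoidAlgebra.coeff_single, Finsupp.sum_single_index]
  simp

theorem cc_sum {ι : Type*} (s : Finset ι) (x : ι → MonoidAlgebra ℤ (Ideal (𝓞 K))) :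
    cc σ 𝔟 κ (∑ i ∈ s, x i) f j = ∑ i ∈ s, cc σ 𝔟 κ (x i) f j := by
  classical
  induction s using Finset.induction_on with
  | empty => simp [cc_zero]
  | insert i s hi ih => rw [Finset.sum_insert hi, Finset.sum_insert hi, cc_add, ih]

end cc

omit [NumberField K] in
/-- linear induction on the monoid algebra -/
theorem ma_ind {p : MonoidAlgebra ℤ (Ideal (𝓞 K)) → Prop} (x : MonoidAlgebra ℤ (Ideal (𝓞 K)))
    (h0 : p 0) (h1 : ∀ x y, p x → p y → p (x + y)) (h2 : ∀ 𝔞 c, p (MonoidAlgebra.single 𝔞 c)) :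
    p x := by
  exact MonoidAlgebra.induction_linear x h0 h1 h2

theorem cc_smul (σ : K →+* ℂ) (𝔟 : Ideal (𝓞 K)) (κ : ℕ) (f : 𝓞 K → ℤ) (j : ℕ) (c : ℤ)
    (x : MonoidAlgebra ℤ (Ideal (𝓞 K))) : cc σ 𝔟 κ (c • x) f j = (c : ℂ) * cc σ 𝔟 κ x f j := by
  induction x using ma_ind with
  | h0 => simp [cc_zero]
  | h1 x y hx hy => rw [smul_add, cc_add, hx, hy, cc_add]; ring
  | h2 𝔞 d =>
    rw [MonoidAlgebra.smul_single, cc_single, cc_single, smul_eq_mul]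
    push_cast
    ring

theorem frobSum_eq (ℓ : ℕ) :
    frobSum K ℓ = ∑ 𝔭 ∈ H220.Pl (𝓞 K) ℓ, MonoidAlgebra.single 𝔭 1 := by
  rw [frobSum]
  have : {𝔭 : Ideal (𝓞 K) | Ideal.absNorm 𝔭 = ℓ} = ((H220.Pl (𝓞 K) ℓ : Finset _) : Set _) := by
    ext 𝔭
    simp
  rw [this, finsum_mem_coe_finset]

theorem cfI_eq (σ : K →+* ℂ) (𝔟 : Ideal (𝓞 K)) (f : 𝓞 K → ℤ) (κ j : ℕ) :
    cfI σ 𝔟 f κ j = H220.A 𝔟 (fun α => (f α : ℂ) * σ α ^ κ) j := rfl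

theorem cfI_mem (hf : H220.FinShell (𝓞 K)) (σ : K →+* ℂ) (𝔟 : Ideal (𝓞 K)) (f : 𝓞 K → ℤ)
    (κ j : ℕ) (O : Subring ℂ) (hO : ∀ z, IsIntegral ℤ z → z ∈ O) : cfI σ 𝔟 f κ j ∈ O := by
  classical
  rw [cfI_eq, H220.A, H220.sum_shell hf]
  refine O.sum_mem fun α _ => ?_
  split_ifs
  · refine O.mul_mem (intCast_mem O _) (O.pow_mem (hO _ ?_) _)
    exact (NumberField.RingOfIntegers.isIntegral_coe α).map σ.toIntAlgHom
  · exact O.zero_mem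

theorem cc_mem (hf : H220.FinShell (𝓞 K)) (σ : K →+* ℂ) (𝔟 : Ideal (𝓞 K))
    (κ : ℕ) (x : MonoidAlgebra ℤ (Ideal (𝓞 K))) (f : 𝓞 K → ℤ) (j : ℕ) (O : Subring ℂ)
    (hO : ∀ z, IsIntegral ℤ z → z ∈ O) : cc σ 𝔟 κ x f j ∈ O := by
  refine O.sum_mem fun 𝔞 _ => O.mul_mem (intCast_mem O _) ?_
  rw [cb]
  split_ifs
  · exact O.zero_mem
  · exact cfI_mem hf σ _ f κ j O hO

/-- `A` of a multiple -/
theorem A_mul (hf : H220.FinShell (𝓞 K)) (𝔟 : Ideal (𝓞 K)) (g : 𝓞 K → ℂ) (j : ℕ) (z : ℂ) :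
    H220.A 𝔟 (fun α => z * g α) j = z * H220.A 𝔟 g j := by
  classical
  rw [H220.A, H220.A, H220.sum_shell hf, H220.sum_shell hf, Finset.mul_sum]
  refine Finset.sum_congr rfl fun α _ => ?_
  split_ifs <;> simp

/-- the twist `f ↦ χ(ℓ) f(ℓ ·)` -/
def tw (D ℓ : ℕ) (f : 𝓞 K → ℤ) : 𝓞 K → ℤ := fun α => chiD D ℓ * f (ℓ * α)

theorem chiD_nat (D ℓ : ℕ) (h : 0 < ℓ) : chiD D ℓ = jacobiSym (-(D : ℤ)) ℓ := by
  rw [chiD, Int.sign_eq_one_of_pos (by exact_mod_cast h), one_mul, Int.natAbs_natCast]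

theorem A_tw (hf : H220.FinShell (𝓞 K)) (σ : K →+* ℂ) (𝔟 : Ideal (𝓞 K)) (f : 𝓞 K → ℤ)
    (κ j D ℓ : ℕ) : (ℓ : ℂ) ^ κ * cfI σ 𝔟 (tw D ℓ f) κ j =
      (chiD D ℓ : ℂ) * H220.A 𝔟 (fun α => (f ((ℓ : 𝓞 K) * α) : ℂ) * σ ((ℓ : 𝓞 K) * α : 𝓞 K) ^ κ) j := by
  rw [cfI_eq, ← A_mul hf, ← A_mul hf]
  congr 1
  funext α
  rw [tw]
  push_cast
  rw [map_mul, map_natCast]
  ring

section hecke

variable (hf : H220.FinShell (𝓞 K)) (h2 : Module.finrank ℤ (𝓞 K) = 2) {ℓ : ℕ} (hℓ : ℓ.Prime)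
  (σ : K →+* ℂ) {𝔟 : Ideal (𝓞 K)} (h𝔟 : 𝔟 ≠ ⊥) (κ D : ℕ)

include hf h2 hℓ h𝔟

theorem cc_frob (hu : H220.Unram (𝓞 K) ℓ) (hχ : H220.chi (𝓞 K) ℓ = chiD D ℓ)
    (x : MonoidAlgebra ℤ (Ideal (𝓞 K))) (f : 𝓞 K → ℤ) (j : ℕ) :
    cc σ 𝔟 κ (x * frobSum K ℓ) f j = cc σ 𝔟 κ x f (ℓ * j) +
      if ℓ ∣ j then (ℓ : ℂ) ^ κ * cc σ 𝔟 κ x (tw D ℓ f) (j / ℓ) else 0 := by
  classical
  induction x using ma_ind with
  | h0 => simp [cc_zero]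
  | h1 x y hx hy =>
    rw [add_mul, cc_add, hx, hy, cc_add, cc_add]
    split_ifs <;> ring
  | h2 𝔞 c =>
    rw [frobSum_eq, Finset.mul_sum, cc_sum, cc_single, cc_single]
    simp only [MonoidAlgebra.single_mul_single, mul_one, cc_single]
    rw [← Finset.mul_sum]
    by_cases h0 : 𝔞 = ⊥
    · have e1 : ∀ f j, cb σ (𝔟 * 𝔞) f κ j = 0 := fun f j => by
        rw [cb, if_pos (by rw [h0, Ideal.mul_bot])]
      have e2 : ∀ 𝔭 ∈ H220.Pl (𝓞 K) ℓ, cb σ (𝔟 * (𝔞 * 𝔭)) f κ j = 0 := fun 𝔭 _ => by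
        rw [cb, if_pos (by rw [h0, Ideal.bot_mul, Ideal.mul_bot])]
      rw [Finset.sum_congr rfl e2, e1, e1]
      simp
    · have h3 : 𝔟 * 𝔞 ≠ ⊥ := mul_ne_zero h𝔟 h0
      have e1 : ∀ f j, cb σ (𝔟 * 𝔞) f κ j = cfI σ (𝔟 * 𝔞) f κ j := fun f j => by
        rw [cb, if_neg h3]
      have e2 : ∀ 𝔭 ∈ H220.Pl (𝓞 K) ℓ, cb σ (𝔟 * (𝔞 * 𝔭)) f κ j =
          H220.A (𝔟 * 𝔞 * 𝔭) (fun α => (f α : ℂ) * σ α ^ κ) j := fun 𝔭 h𝔭 => by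
        have h4 : 𝔭 ≠ ⊥ := by
          rintro rfl
          rw [H220.mem_Pl, Ideal.absNorm_bot] at h𝔭
          exact hℓ.ne_zero h𝔭.symm
        rw [cb, if_neg (by rw [← mul_assoc]; exact mul_ne_zero h3 h4), ← mul_assoc]
        rfl
      rw [Finset.sum_congr rfl e2, e1, e1, ← H220.ser_T h2 hℓ hf hu h3, hχ, cfI_eq]
      split_ifs with hj
      · rw [zsmul_eq_mul, mul_add, ← mul_assoc ((ℓ : ℂ) ^ κ), mul_comm ((ℓ : ℂ) ^ κ) (c : ℂ),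
          mul_assoc (c : ℂ) ((ℓ : ℂ) ^ κ), A_tw hf]
      · simp

theorem cc_ell (x : MonoidAlgebra ℤ (Ideal (𝓞 K))) (f : 𝓞 K → ℤ) (j : ℕ) :
    cc σ 𝔟 κ (x * MonoidAlgebra.single (Ideal.span {(ℓ : 𝓞 K)}) (chiD D ℓ)) f j =
      (ℓ : ℂ) ^ κ * cc σ 𝔟 κ x (tw D ℓ f) j := by
  classical
  induction x using ma_ind with
  | h0 => simp [cc_zero]
  | h1 x y hx hy => rw [add_mul, cc_add, hx, hy, cc_add]; ring
  | h2 𝔞 c =>
    rw [MonoidAlgebra.single_mul_single, cc_single, cc_single]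
    by_cases h0 : 𝔞 = ⊥
    · rw [cb, if_pos (by rw [h0, Ideal.bot_mul, Ideal.mul_bot]), cb,
        if_pos (by rw [h0, Ideal.mul_bot])]
      simp
    · have h3 : 𝔟 * 𝔞 ≠ ⊥ := mul_ne_zero h𝔟 h0
      have h4 : Ideal.span {(ℓ : 𝓞 K)} ≠ ⊥ := by
        rw [Ne, Ideal.span_singleton_eq_bot]
        exact_mod_cast hℓ.ne_zero
      rw [cb, if_neg (by rw [← mul_assoc]; exact mul_ne_zero h3 h4), cb, if_neg h3, ← mul_assoc,
        mul_left_comm, A_tw hf, H220.ser_S h2 hℓ (𝔟 * 𝔞) (fun α => (f α : ℂ) * σ α ^ κ), cfI_eq]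
      push_cast
      ring

end hecke

/-! ### the induction -/

/-- `Ψ f` is congruent to `∑ x(𝔞) θ_{𝔟 𝔞, f}` and the diamond operators act by twists -/
def IsRel (σ : K →+* ℂ) (𝔟 : Ideal (𝓞 K)) (O : Subring ℂ) (m r N D n κ k : ℕ) [NeZero N]
    (χ : ℤ → ℤ) (Ψ : (𝓞 K → ℤ) → MF N (κ + 2 ^ n * k + 1))
    (x : MonoidAlgebra ℤ (Ideal (𝓞 K))) : Prop :=
  ∀ f : 𝓞 K → ℤ, Eqv m r N χ f → Cong O n (Ψ f) (cc σ 𝔟 κ x f) ∧
    ∀ ℓ : PA N, H783.dia (κ + 2 ^ n * k + 1) ℓ (Ψ f) = Ψ (tw D ℓ.1 f)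

omit [NumberField K] in
theorem Eqv.tw {m r N : ℕ} {χ : ℤ → ℤ} {f : 𝓞 K → ℤ} (h : Eqv m r N χ f) (D ℓ : ℕ) :
    Eqv m r N χ (tw D ℓ f) := by
  refine ⟨fun α β => ?_, fun d hd hN α => ?_⟩
  · rw [X.tw, X.tw, show (ℓ : 𝓞 K) * (α + ((2 ^ r * m : ℕ) : 𝓞 K) * β) =
      ℓ * α + ((2 ^ r * m : ℕ) : 𝓞 K) * (ℓ * β) by ring, h.1]
  · rw [X.tw, X.tw, show (ℓ : 𝓞 K) * ((d : 𝓞 K) * α) = d * (ℓ * α) by ring, h.2 d hd hN]
    ring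

theorem MF.coe_eq {N k : ℕ} {F G : MF N k} (h : F = G) (τ : ℍ) : F τ = G τ := by rw [h]

section ind

variable [Algebra.IsQuadraticExtension ℚ K] [NumberField.IsTotallyComplex K]
  (σ : K →+* ℂ) {𝔟 : Ideal (𝓞 K)} (h𝔟 : 𝔟 ≠ ⊥) (O : Subring ℂ)
  (hO : ∀ z, IsIntegral ℤ z → z ∈ O) (m r N D n κ k : ℕ) [NeZero N] (χ : ℤ → ℤ)
  (hD : NumberField.discr K = -(D : ℤ)) (hDN : ∀ ℓ : PA N, ¬ ℓ.1 ∣ 2 * D)

include h𝔟 hO hD hDN

theorem isRel_act (P : FreeAlgebra ℤ (Gen N)) :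
    ∀ (Ψ : (𝓞 K → ℤ) → MF N (κ + 2 ^ n * k + 1)) (x : MonoidAlgebra ℤ (Ideal (𝓞 K))),
      IsRel σ 𝔟 O m r N D n κ k χ Ψ x →
      IsRel σ 𝔟 O m r N D n κ k χ
        (fun f => FreeAlgebra.lift ℤ (fun s => gHk N s (κ + 2 ^ n * k)) P (Ψ f))
        (x * Lam K N (fun ℓ => chiD D ℓ) P) := by
  have h2 : Module.finrank ℤ (𝓞 K) = 2 := by
    rw [NumberField.RingOfIntegers.rank]
    exact Algebra.IsQuadraticExtension.finrank_eq_two ℚ K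
  have hf : H220.FinShell (𝓞 K) :=
    H220.finShell_imag (Algebra.IsQuadraticExtension.finrank_eq_two ℚ K) inferInstance
  induction P using FreeAlgebra.induction with
  | grade0 c =>
    intro Ψ x h f hE
    obtain ⟨h1, h3⟩ := h f hE
    have e : ∀ G : MF N (κ + 2 ^ n * k + 1), (FreeAlgebra.lift ℤ
        (fun s => gHk N s (κ + 2 ^ n * k))) (algebraMap ℤ (FreeAlgebra ℤ (Gen N)) c) G =
        (c : ℂ) • G := by
      intro G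
      rw [AlgHom.commutes, Module.algebraMap_end_apply, Int.cast_smul_eq_zsmul]
    refine ⟨?_, fun ℓ => ?_⟩
    · refine (h1.zsmul c).congr (fun τ => ?_) fun j => ?_
      · dsimp only
        rw [e]
        rfl
      · rw [AlgHom.commutes, mul_comm, ← Algebra.smul_def, cc_smul]
    · simp only [e]
      rw [map_smul, h3 ℓ]
  | grade1 s =>
    intro Ψ x h f hE
    obtain ⟨h1, h3⟩ := h f hE
    cases s with
    | inl ℓ =>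
      have e : ∀ G : MF N (κ + 2 ^ n * k + 1), (FreeAlgebra.lift ℤ
          (fun s => gHk N s (κ + 2 ^ n * k))) (FreeAlgebra.ι ℤ (Sum.inl ℓ)) G =
          H783.Tl (κ + 2 ^ n * k + 1) ℓ G := by
        intro G
        rw [FreeAlgebra.lift_ι_apply]
        rfl
      refine ⟨?_, fun ℓ' => ?_⟩
      · obtain ⟨h4, -⟩ := h (tw D ℓ.1 f) (hE.tw D ℓ.1)
        rw [← h3 ℓ] at h4
        have ho : Odd ℓ.1 := ℓ.2.1.odd_of_ne_two fun h => ℓ.2.2 ⟨N, by rw [h]⟩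
        have h5 := Cong.tFun ℓ ho (fun j => cc_mem hf σ 𝔟 κ x (tw D ℓ.1 f) j O hO) h1
          (k := k) (κ := κ) (by rw [← H783.dia_coe]; exact h4)
        refine h5.congr (fun τ => ?_) fun j => ?_
        · simp only [e]
          rw [← H783.Tl_coe]
        · rw [Lam, FreeAlgebra.lift_ι_apply]
          simp only [Sum.elim_inl]
          rw [cc_frob hf h2 ℓ.2.1 σ h𝔟 κ D (H724.unram hD ℓ.2.1 (hDN ℓ))
            ((H776.chiE_eq hD ℓ.2.1 (hDN ℓ)).trans (chiD_nat D ℓ.1 ℓ.2.1.pos).symm)]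
      · simp only [e]
        rw [← h3 ℓ']
        exact (H783.Tl_slG0 _ ℓ (H783.gd_mem ℓ'.coprime) (Ψ f)).symm
    | inr ℓ =>
      have e : ∀ G : MF N (κ + 2 ^ n * k + 1), (FreeAlgebra.lift ℤ
          (fun s => gHk N s (κ + 2 ^ n * k))) (FreeAlgebra.ι ℤ (Sum.inr ℓ)) G =
          ((ℓ.1 : ℂ) ^ (κ + 2 ^ n * k)) • H783.dia (κ + 2 ^ n * k + 1) ℓ G := by
        intro G
        rw [FreeAlgebra.lift_ι_apply]
        rfl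
      refine ⟨?_, fun ℓ' => ?_⟩
      · obtain ⟨h4, -⟩ := h (tw D ℓ.1 f) (hE.tw D ℓ.1)
        rw [← h3 ℓ] at h4
        have ho : Odd ℓ.1 := ℓ.2.1.odd_of_ne_two fun h => ℓ.2.2 ⟨N, by rw [h]⟩
        obtain ⟨t, ht⟩ := two_pow_dvd (ℓ.1 ^ k) (ho.pow) n
        have hp : (ℓ.1 : ℂ) ^ (κ + 2 ^ n * k) =
            (ℓ.1 : ℂ) ^ κ + 2 ^ n * ((ℓ.1 : ℂ) ^ κ * (t : ℂ)) := by
          have h6 : (((ℓ.1 ^ k : ℕ) : ℤ) : ℂ) ^ (2 ^ n) - 1 = ((2 ^ n : ℕ) : ℂ) * (t : ℂ) := by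
            exact_mod_cast congrArg (Int.cast : ℤ → ℂ) ht
          push_cast at h6
          rw [pow_add, pow_mul', eq_add_of_sub_eq h6]
          ring
        have h5 := (h4.zsmul ((ℓ.1 : ℤ) ^ (κ + 2 ^ n * k))).change
          (b := cc σ 𝔟 κ (x * Lam K N (fun ℓ => chiD D ℓ) (FreeAlgebra.ι ℤ (Sum.inr ℓ))) f)
          (fun j => ?_)
        · refine h5.congr (fun τ => ?_) fun j => rfl
          dsimp only
          rw [e, Int.cast_pow, Int.cast_natCast]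
          rfl
        · refine ⟨(ℓ.1 : ℂ) ^ κ * (t : ℂ) * cc σ 𝔟 κ x (tw D ℓ.1 f) j,
            O.mul_mem (O.mul_mem (O.pow_mem (natCast_mem O _) _) (intCast_mem O t))
              (cc_mem hf σ 𝔟 κ x _ j O hO), ?_⟩
          rw [Lam, FreeAlgebra.lift_ι_apply]
          simp only [Sum.elim_inr]
          rw [cc_ell hf h2 ℓ.2.1 σ h𝔟 κ D, Int.cast_pow, Int.cast_natCast, hp]
          ring
      · simp only [e]
        rw [← h3 ℓ', map_smul, H783.dia_dia]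
  | mul a b ha hb =>
    intro Ψ x h
    have h1 := ha _ _ (hb Ψ x h)
    intro f hE
    have h4 := h1 f hE
    rw [map_mul, map_mul]
    rw [mul_assoc, mul_comm (Lam K N (fun ℓ => chiD D ℓ) b)] at h4
    exact h4
  | add a b ha hb =>
    intro Ψ x h f hE
    obtain ⟨h1, h3⟩ := ha Ψ x h f hE
    obtain ⟨h1', h3'⟩ := hb Ψ x h f hE
    refine ⟨?_, fun ℓ => ?_⟩
    · refine (h1.add h1').congr (fun τ => ?_) fun j => ?_
      · rw [map_add]; rfl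
      · rw [map_add, mul_add, cc_add]
    · simp only [map_add, LinearMap.add_apply] at h3 h3' ⊢
      rw [h3, h3']

end ind

/-! ### the coefficient of `q` -/

theorem set_eq {𝔠 : Ideal (𝓞 K)} (h : 𝔠 ≠ ⊥) :
    {α : 𝓞 K | α ∈ 𝔠 ∧ Ideal.absNorm (Ideal.span {α}) = 1 * Ideal.absNorm 𝔠} =
      {α : 𝓞 K | Ideal.span {α} = 𝔠} := by
  ext α
  rw [Set.mem_ofPred_eq, Set.mem_ofPred_eq, one_mul]
  constructor
  · rintro ⟨h1, h2⟩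
    refine (H220.eq_of_dvd_of_norm (Ideal.dvd_span_singleton.2 h1) h2.symm ?_).symm
    rw [h2, Ne, Ideal.absNorm_eq_zero_iff]
    exact h
  · intro h1
    exact ⟨h1 ▸ Ideal.mem_span_singleton_self α, by rw [h1]⟩

theorem cfI_one (hf : H220.FinShell (𝓞 K)) (σ : K →+* ℂ) {𝔠 : Ideal (𝓞 K)} (h : 𝔠 ≠ ⊥)
    (f : 𝓞 K → ℤ) (κ : ℕ) : cfI σ 𝔠 f κ 1 =
      σ (∑ᶠ α ∈ {α : 𝓞 K | Ideal.span {α} = 𝔠}, (f α : K) * (α : K) ^ κ) := by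
  have hfin : {α : 𝓞 K | Ideal.span {α} = 𝔠}.Finite := by
    refine (hf (Ideal.absNorm 𝔠)).subset fun α hα => ?_
    rw [Set.mem_ofPred_eq] at hα ⊢
    rw [hα]
  rw [cfI, set_eq h, finsum_mem_eq_finite_toFinset_sum _ hfin,
    finsum_mem_eq_finite_toFinset_sum _ hfin, map_sum]
  refine Finset.sum_congr rfl fun α _ => ?_
  rw [map_mul, map_pow, map_intCast]

theorem pair_eq (hf : H220.FinShell (𝓞 K)) (σ : K →+* ℂ) {𝔟 : Ideal (𝓞 K)} (h𝔟 : 𝔟 ≠ ⊥)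
    (f : 𝓞 K → ℤ) (κ : ℕ) (x : MonoidAlgebra ℤ (Ideal (𝓞 K)))
    (hx : ∀ 𝔞 : Ideal (𝓞 K), x.coeff 𝔞 ≠ 0 → 𝔞 ≠ ⊥) :
    σ (pair (fun α => (f α : K) * (α : K) ^ κ) 𝔟 x) = cc σ 𝔟 κ x f 1 := by
  rw [pair, cc, Finsupp.sum, Finsupp.sum, map_sum]
  refine Finset.sum_congr rfl fun 𝔞 h𝔞 => ?_
  have h3 : 𝔟 * 𝔞 ≠ ⊥ := mul_ne_zero h𝔟 (hx 𝔞 (Finsupp.mem_support_iff.1 h𝔞))
  rw [cb, if_neg h3, cfI_one hf σ h3, map_zsmul, zsmul_eq_mul]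

theorem van2 (hL : LIFT2Stmt) : VAN2Stmt := by
  intro K _ _ _ _ D₁ e hD hD₁ E _ _ _ ι m hm _ χ h1 h4 f hf κ 𝔟 h𝔟 ε hε
  obtain ⟨r, hE⟩ := hf
  obtain ⟨σ⟩ : Nonempty (K →+* ℂ) := inferInstance
  obtain ⟨O, hO, -, -, hO1, -, hO2, -, -⟩ := H547.val' σ ι
  obtain ⟨n, hn⟩ := exists_pow_lt_of_lt_one hε (show (2 : ℝ)⁻¹ < 1 by norm_num)
  obtain ⟨k, Φ, hΦ⟩ := hL K D₁ e hD hD₁ m hm χ h1 h4 σ O hO1 hO2 r κ n 𝔟 h𝔟
  refine ⟨κ + 2 ^ n * k + 1, fun P hP => ?_⟩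
  have hP0 := hP (κ + 2 ^ n * k) (Nat.lt_succ_self _)
  have hfs : H220.FinShell (𝓞 K) :=
    H220.finShell_imag (Algebra.IsQuadraticExtension.finrank_eq_two ℚ K) inferInstance
  have hDN : ∀ ℓ : PA (D₁ * m ^ 2), ¬ ℓ.1 ∣ 2 * (D₁ * 2 ^ e) := by
    intro ℓ h
    have h2 : ¬ ℓ.1 ∣ 2 := fun h => ℓ.2.2 (h.mul_right _)
    have h3 : ¬ ℓ.1 ∣ D₁ := fun h => ℓ.2.2 ((h.mul_right _).mul_left _)
    rcases (Nat.Prime.dvd_mul ℓ.2.1).1 h with h | h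
    · exact h2 h
    · rcases (Nat.Prime.dvd_mul ℓ.2.1).1 h with h | h
      · exact h3 h
      · exact h2 (ℓ.2.1.dvd_of_dvd_pow h)
  have hrel : IsRel σ 𝔟 O m r (D₁ * m ^ 2) (D₁ * 2 ^ e) n κ k χ Φ 1 := by
    intro g hg
    obtain ⟨h5, h6⟩ := hΦ g hg
    refine ⟨h5.congr (fun τ => rfl) fun j => ?_, h6⟩
    rw [MonoidAlgebra.one_def, cc_single, cb, mul_one, if_neg h𝔟]
    simp
  obtain ⟨⟨u, hu, hs⟩, -⟩ := isRel_act σ h𝔟 O hO1 m r (D₁ * m ^ 2) (D₁ * 2 ^ e) n κ k χ hD hDN P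
    Φ 1 hrel f hE
  rw [one_mul] at hu
  have hu0 : ∀ j, u j = 0 := by
    refine H220.Ex.unique (F := fun _ => 0) (R := 1) one_pos (b := fun _ => 0) (hs_one
      (fun τ => ?_)) (fun τ => ?_)
    · have := hs τ
      rw [hP0] at this
      exact this
    · simp [hasSum_zero]
  obtain ⟨y, hy, e1⟩ := hu 1
  rw [hu0 1] at e1
  have hpr := pair_eq hfs σ h𝔟 f κ (Lam K (D₁ * m ^ 2) (fun ℓ => chiD (D₁ * 2 ^ e) ℓ) P) (by
    intro 𝔞 h𝔞 h0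
    have h7 := H576.SUP K (D₁ * m ^ 2) (fun ℓ => chiD (D₁ * 2 ^ e) ℓ) P 𝔞 h𝔞
    rw [h0, Ideal.isCoprime_iff_sup_eq, bot_sup_eq] at h7
    have h2 : Module.finrank ℤ (𝓞 K) = 2 := by
      rw [NumberField.RingOfIntegers.rank]
      exact Algebra.IsQuadraticExtension.finrank_eq_two ℚ K
    have h8 := H220.norm_l (R := 𝓞 K) h2 (l := 2 * (D₁ * m ^ 2))
    rw [h7, Ideal.absNorm_top] at h8
    have h9 : 2 * (D₁ * m ^ 2) = 1 := by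
      rcases Nat.pow_eq_one.1 h8.symm with h | h
      · exact h
      · exact absurd h two_ne_zero
    omega)
  have hle := (hO (pair (fun α => (f α : K) * (α : K) ^ κ) 𝔟
    (Lam K (D₁ * m ^ 2) (fun ℓ => chiD (D₁ * 2 ^ e) ℓ) P)) n).1 ⟨-y, O.neg_mem hy, by
      rw [hpr]
      linear_combination -e1⟩
  exact lt_of_le_of_lt hle hn

end Vale.Agent.P022.X
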